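import Vale.Agent.P011UT4.Defs
import Vale.Agent.P011UH.Cl
import Mathlib.LinearAlgebra.LinearIndependent.BaseChange
import Mathlib.GroupTheory.FiniteAbelian.Basic

/-!
The isogeny to the adjoint group.
-/

set_option autoImplicit false
set_option linter.all false

namespace Vale.Agent.P011UV2

open Matrix Vale.Agent.P011L Vale.Agent.P183CH Vale.Agent.P183CH.Chev Vale.Agent.P011U
  Vale.Agent.P011UT4 Vale.Agent.P011UH

section

variable {F E K : Type} [Field F] [Field E] [Field K] [Algebra F E] [Algebra F K]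

theorem spec {m : Type} [Finite m] [IsAlgClosed K] (g : Matrix m m E) :
    ∃ x : Matrix m m K, ∀ p, ev F g p = 0 → ev F x p = 0 := by
  obtain ⟨I, hI, h⟩ := Ideal.exists_le_maximal (RingHom.ker (ev F g)) (RingHom.ker_ne_top _)
  obtain ⟨x, e⟩ := MvPolynomial.eq_vanishingIdeal_singleton_of_isMaximal K hI
  exact ⟨of fun a b => x (a, b), fun p hp =>
    (MvPolynomial.mem_vanishingIdeal_singleton_iff x p).1 (e ▸ h hp)⟩

variable {D : Chev} {m : ℕ}

theorem map_sum' (f : F →+* E) (c : Fin m → F) (b : Fin m → D.Mat F) :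
    (∑ i, c i • b i).map f = ∑ i, f (c i) • bm f b i := by
  ext a a'
  simp [bm, Matrix.sum_apply]

theorem span_map (f : F →+* E) {S : Set (D.Mat F)} {W : Submodule E (D.Mat E)}
    (h : ∀ X ∈ S, X.map f ∈ W) {X : D.Mat F} (hX : X ∈ Submodule.span F S) : X.map f ∈ W := by
  induction hX using Submodule.span_induction with
  | mem x hx => exact h x hx
  | zero => exact (Matrix.map_zero _ (map_zero f)).symm ▸ zero_mem _
  | add x y _ _ hx hy => exact (Matrix.map_add _ (map_add f) x y).symm ▸ add_mem hx hy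
  | smul c x _ hx =>
    have : (c • x).map f = f c • x.map f := Matrix.ext fun _ _ => map_mul f _ _
    exact this ▸ W.smul_mem _ hx

theorem ct_map (f : F →+* E) (M : D.Mat ℤ) : (ct F M).map f = ct E M :=
  Matrix.ext fun _ _ => map_intCast f _

theorem bs_up {b : Fin m → D.Mat F} (h : Bs b) : Bs (bm (algebraMap F K) b) := by
  refine ⟨?_, le_antisymm (Submodule.span_le.2 ?_) (Submodule.span_le.2 ?_)⟩
  · have := (linearIndependent_algebraMap_comp_iff (S := K)).2 (h.1.map'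
      (LinearEquiv.curry F F (Fin D.n) (Fin D.n)).symm.toLinearMap (LinearEquiv.ker _))
    exact this.map' (LinearEquiv.curry K K (Fin D.n) (Fin D.n)).toLinearMap (LinearEquiv.ker _)
  · rintro _ ⟨j, rfl⟩
    refine span_map _ ?_ (h.2.le (Submodule.subset_span ⟨j, rfl⟩))
    rintro _ (⟨γ, a, c, rfl⟩ | ⟨i, rfl⟩)
    · exact Submodule.subset_span (.inl ⟨γ, a, c, ct_map _ _⟩)
    · exact Submodule.subset_span (.inr ⟨i, ct_map _ _⟩)
  · have k : ∀ X ∈ gg D F, X.map (algebraMap F K) ∈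
        Submodule.span K (Set.range (bm (algebraMap F K) b)) := fun X hX =>
      span_map _ (by rintro _ ⟨j, rfl⟩; exact Submodule.subset_span ⟨j, rfl⟩) (h.2.ge hX)
    rintro _ (⟨γ, a, c, rfl⟩ | ⟨i, rfl⟩)
    · exact ct_map (algebraMap F K) _ ▸ k _ (Submodule.subset_span (.inl ⟨γ, a, c, rfl⟩))
    · exact ct_map (algebraMap F K) _ ▸ k _ (Submodule.subset_span (.inr ⟨i, rfl⟩))

theorem cm_of {n : Type} [Fintype n] {g : Matrix n n E} {x : Matrix n n K}
    (hx : ∀ p, ev F g p = 0 → ev F x p = 0) {y y' : Matrix n n F}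
    (h : g * y.map (algebraMap F E) = y'.map (algebraMap F E) * g) :
    x * y.map (algebraMap F K) = y'.map (algebraMap F K) * x := by
  rw [← (ev_mul _ _).1, ← (ev_mul _ _).2] at h ⊢
  ext a c
  refine sub_eq_zero.1 ((map_sub (ev F x) _ _).symm.trans (hx _ ?_))
  rw [map_sub]
  exact sub_eq_zero.2 (congrFun₂ h a c)

theorem lift [Infinite F] [IsAlgClosed K] (hD : SC D) {b : Fin m → D.Mat F} (hb : Bs b)
    {ρ : D.grp K →* Matrix (Fin m) (Fin m) K} (hρ : Rp (bm (algebraMap F K) b) ρ)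
    {ρ' : D.grp E →* Matrix (Fin m) (Fin m) E} (hρ' : Rp (bm (algebraMap F E) b) ρ')
    {δ : Matrix (Fin m) (Fin m) F} {g : D.grp E} (e : ρ' g = δ.map (algebraMap F E)) :
    ∃ h, ρ h = δ.map (algebraMap F K) := by
  obtain ⟨x, hx⟩ := spec (F := F) (K := K) g.1.1
  obtain ⟨h, eh⟩ := (zc_iff (K := F) (M := x) hD).1 fun p hp => hx p (zc_grp g p hp)
  refine ⟨h, Matrix.ext fun i j => ?_⟩
  have h1 : g.1.1 * (b j).map (algebraMap F E) =
      (∑ i, δ i j • b i).map (algebraMap F E) * g.1.1 := by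
    have := hρ' g j
    rw [e, Ad_apply] at this
    rw [map_sum']
    exact (Units.mul_inv_eq_iff_eq_mul _).1 this
  have h2 := cm_of hx h1
  rw [map_sum', ← eh] at h2
  have h3 := hρ h j
  rw [Ad_apply] at h3
  have h4 : h.1.1 * bm (algebraMap F K) b j * h.1⁻¹.1 = _ := (Units.mul_inv_eq_iff_eq_mul h.1).2 h2
  exact (bs_up (K := K) hb).1.eq_coords_of_eq (f := fun i => ρ h i j)
    (g := fun i => algebraMap F K (δ i j)) (h3.symm.trans h4) i

end

theorem idx {G : Type} [Group G] {Λ R : Subgroup G} (hΛ : Λ.FG) {e : ℕ} (he : 0 < e)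
    (h1 : ∀ a ∈ Λ, a ^ e ∈ R) (h2 : ∀ a ∈ Λ, ∀ b ∈ Λ, a * b * a⁻¹ * b⁻¹ ∈ R) :
    R.relIndex Λ ≠ 0 := by
  have hc : _root_.commutator Λ ≤ R.subgroupOf Λ :=
    Subgroup.commutator_le.2 fun a _ b _ => h2 a a.2 b b.2
  haveI := Subgroup.Normal.of_commutator_le _ hc
  haveI := (Group.fg_iff_subgroup_fg Λ).2 hΛ
  letI : CommGroup (Λ ⧸ R.subgroupOf Λ) := { QuotientGroup.Quotient.group _ with
    mul_comm := (Subgroup.Normal.quotient_commutative_iff_commutator_le.2 hc).1.1 }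
  haveI : Finite (Λ ⧸ R.subgroupOf Λ) := CommGroup.finite_of_fg_isMulTorsion _ fun q => by
    obtain ⟨a, rfl⟩ := QuotientGroup.mk_surjective q
    exact isOfFinOrder_iff_pow_eq_one.2 ⟨e, he, (QuotientGroup.eq_one_iff (a ^ e)).2 (h1 a a.2)⟩
  exact Subgroup.index_ne_zero_of_finite

theorem isg (cen : CEN) : ISG := by
  intro k K _ _ _ _ _ D hD T F m b M ρ r hK E _ _ φ ρ' hρ' Λ hΛ hl
  haveI : CharZero K := charZero_of_injective_algebraMap (algebraMap k K).injective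
  haveI : IsSepClosed K := IsSepClosure.sep_closed k
  haveI : IsAlgClosed K := IsSepClosed.isAlgClosed_of_perfectField K
  haveI : Infinite F := Infinite.of_injective _ (algebraMap k F).injective
  letI : Algebra F E := φ.toRingHom.toAlgebra
  obtain ⟨e, he, hz⟩ := cen D
  have lf : ∀ δ ∈ Λ, ∃ h, ρ h = δ.1.map (algebraMap k K) ∧ ∀ σ, ∃ z, (∀ g, z * g = g * z) ∧
      z ^ e = 1 ∧ T.a σ h = z * h := fun δ hδ => by
    obtain ⟨g, hg⟩ := hl δ hδ
    obtain ⟨h, e1⟩ := lift (δ := δ.1.map (algebraMap k F)) hD hK.bs hK.rp hρ'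
      (hg.trans (Matrix.ext fun i j => (φ.commutes _).symm))
    have e2 : ρ h = δ.1.map (algebraMap k K) := e1
    refine ⟨h, e2, fun σ => ?_⟩
    have e3 : ρ (T.a σ h * h⁻¹) = 1 := by
      rw [map_mul, hK.eqv, e2, show (δ.1.map (algebraMap k K)).map σ = δ.1.map (algebraMap k K)
        from Matrix.ext fun _ _ => σ.commutes _, ← e2, ← map_mul, mul_inv_cancel, map_one]
    obtain ⟨a, c⟩ := hz K (T.a σ h * h⁻¹) fun X hX => by
      refine LinearMap.eqOn_span (g := LinearMap.id) ?_ ((bs_up hK.bs).2.ge hX)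
      rintro _ ⟨j, rfl⟩
      rw [hK.rp, e3]
      simp [Matrix.one_apply]
    exact ⟨_, a, c, (inv_mul_cancel_right _ _).symm⟩
  have mem : ∀ (δ : (Matrix (Fin m) (Fin m) k)ˣ) h, (∀ σ, T.a σ h = h) →
      ρ h = δ.1.map (algebraMap k K) → δ ∈ r.toHomUnits.range := fun δ h a c =>
    ⟨⟨h, a⟩, Units.ext (Matrix.map_injective (algebraMap k K).injective ((hK.rr _).trans c))⟩
  let u := Units.map (algebraMap k K).mapMatrix.toMonoidHom (M := Matrix (Fin m) (Fin m) k)
  have hu : ∀ {h δ}, ρ h = δ.1.map (algebraMap k K) ↔ ρ.toHomUnits h = u δ :=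
    ⟨fun h => Units.ext h, fun h => congrArg Units.val h⟩
  refine idx hΛ he (fun a ha => ?_) fun a ha c hc => ?_
  · obtain ⟨h, e1, e2⟩ := lf a ha
    refine mem _ (h ^ e) (fun σ => ?_) (hu.2 (by rw [map_pow, map_pow, hu.1 e1]))
    obtain ⟨z, a1, a2, a3⟩ := e2 σ
    rw [map_pow, a3, Commute.mul_pow (a1 h), a2, one_mul]
  · obtain ⟨h, e1, e2⟩ := lf a ha
    obtain ⟨h', e3, e4⟩ := lf c hc
    refine mem _ (h * h' * h⁻¹ * h'⁻¹) (fun σ => ?_)
      (hu.2 (by simp only [map_mul, map_inv, hu.1 e1, hu.1 e3]))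
    obtain ⟨z, a1, -, a3⟩ := e2 σ
    obtain ⟨w, b1, -, b3⟩ := e4 σ
    simp only [map_mul, map_inv, a3, b3]
    calc _ = z * (h * w * h' * h⁻¹) * z⁻¹ * h'⁻¹ * w⁻¹ := by group
      _ = w * (h * h' * h⁻¹ * h'⁻¹) * w⁻¹ := by rw [a1, ← b1 h]; group
      _ = _ := by rw [b1]; group

end Vale.Agent.P011UV2
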