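import Vale.Agent.P011UT4.Kit

/-!
The form of the Lie algebra is simple.
-/

set_option autoImplicit false
set_option linter.all false

namespace Vale.Agent.P011UV2

open Matrix Vale.Agent.P011L Vale.Agent.P183CH Vale.Agent.P183CH.Chev Vale.Agent.P011U
  Vale.Agent.P011UT4

theorem adm_exp {k F n : Type} [Field k] [Field F] [Fintype n] [DecidableEq n] (f : k →+* F)
    (M : n → Matrix n n k) (x : n → F) (u : n → k) :
    adm (fun a => (M a).map f) x *ᵥ (f ∘ u) = ∑ c, x c • f ∘ (adm M (Pi.single c 1) *ᵥ u) := by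
  funext a
  simp only [adm, mulVec, dotProduct, of_apply, map_apply, Finset.sum_apply, Pi.smul_apply,
    Function.comp, Pi.single_apply, ite_mul, one_mul, zero_mul, Finset.sum_ite_eq',
    Finset.mem_univ, if_true, map_sum, map_mul, smul_eq_mul, Finset.sum_mul, Finset.mul_sum,
    mul_assoc]
  exact Finset.sum_comm

theorem nab (D : Chev) (F : Type) [Field F] [CharZero F] :
    ∃ X ∈ gg D F, ∃ Y ∈ gg D F, X * Y - Y * X ≠ 0 := by
  let i : Fin D.r := ⟨0, (R_ok D).pos⟩
  refine ⟨_, P011UC.lie_e (rt_simple i).1.rt fun _ h => (h trivial).elim, _,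
    P011UC.lie_e (rt_simple i).2.1.rt fun _ h => (h trivial).elim, fun h => ?_⟩
  rw [EE_e, EE_f, ← map_mul, ← map_mul, ← map_sub] at h
  have e : D.hm i = 0 := (ef i).symm.trans (ct_inj (k := F) (h.trans (map_zero _).symm))
  exact (D.b.sl2 i).h_ne_zero (D.inj (by rw [φ_h, e, map_zero, map_zero]))

theorem sim (irr : IRR) : SIM := by
  intro k K _ _ _ _ _ D hD T F m b M ρ r hK
  haveI : CharZero F := charZero_of_injective_algebraMap (algebraMap k F).injective
  haveI : Algebra.IsAlgebraic ℚ F := Algebra.IsAlgebraic.trans ℚ k F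
  set f := algebraMap k F
  have inj : ∀ {x y : Fin m → k}, co b (f ∘ x) = co b (f ∘ y) → x = y := fun h =>
    f.injective.comp_left (hK.bs.inj h)
  have br : ∀ x y, co b (f ∘ (adm M x *ᵥ y)) =
      co b (f ∘ x) * co b (f ∘ y) - co b (f ∘ y) * co b (f ∘ x) := fun x y => by
    rw [hK.sc.co, adm_map]
    exact congrArg _ (funext fun i => RingHom.map_mulVec f _ _ i)
  have z : f ∘ (0 : Fin m → k) = 0 := funext fun _ => f.map_zero
  refine ⟨fun x => inj ?_, fun x y => toLin'.injective (LinearMap.ext fun z => inj ?_), ?_,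
    fun U hU => ?_⟩
  · rw [br, sub_self, z, map_zero]
  · have e : ∀ u v : Fin m → k, f ∘ (u - v) = f ∘ u - f ∘ v := fun u v =>
      funext fun i => f.map_sub _ _
    rw [toLin'_apply, toLin'_apply]
    simp only [sub_mulVec, ← mulVec_mulVec, e, map_sub, br]
    noncomm_ring
  · by_contra! h
    obtain ⟨X, hX, Y, hY, e⟩ := nab D F
    obtain ⟨x, rfl⟩ := hK.bs.surj hX
    obtain ⟨y, rfl⟩ := hK.bs.surj hY
    have : adm (fun a => (M a).map f) x = 0 := Matrix.ext fun a c => by
      have : ∀ d, M a d c = 0 := fun d => by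
        simpa [adm, Pi.single_apply] using congrFun₂ (h (Pi.single d 1)) a c
      simp [adm, this]
    exact e (by rw [hK.sc.co, this, zero_mulVec, map_zero])
  · let W := Submodule.span F ((f ∘ ·) '' (U : Set (Fin m → k)))
    rcases (irr D F ⟨(IsAlgClosed.lift (R := ℚ) (S := F) (M := ℂ)).toRingHom⟩).2 (W.map (co b))
      (by rintro _ ⟨y, -, rfl⟩; exact hK.bs.mem y) (.inl fun X hX Y hY => by
        obtain ⟨x, rfl⟩ := hK.bs.surj hX
        obtain ⟨y, hy, rfl⟩ := hY
        refine ⟨_, ?_, (hK.sc.co x y).symm⟩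
        refine (Submodule.span_le (p := W.comap (mulVecLin _))).2 ?_ hy
        rintro _ ⟨u, hu, rfl⟩
        exact (congrArg (· ∈ W) (adm_exp f M x u)).mpr (W.sum_mem fun c _ =>
          W.smul_mem _ (Submodule.subset_span ⟨_, hU _ u hu, rfl⟩))) with h | h
    · refine .inl (eq_bot_iff.2 fun u hu => inj ?_)
      rw [z, map_zero]
      exact h.le ⟨_, Submodule.subset_span ⟨u, hu, rfl⟩, rfl⟩
    · refine .inr (by_contra fun c => ?_)
      obtain ⟨l, l0, hl⟩ := U.exists_le_ker_of_lt_top (lt_top_iff_ne_top.2 c)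
      let L := Fintype.linearCombination F fun i : Fin m => f (l (Pi.single i 1))
      have e : ∀ u, L (f ∘ u) = f (l u) := fun u => by
        conv_rhs => rw [pi_eq_sum_univ' u]
        simp [L, Fintype.linearCombination_apply]
      refine l0 (LinearMap.ext fun x => f.injective ?_)
      obtain ⟨y, hy, e'⟩ := h.ge (hK.bs.mem (f ∘ x))
      rw [← e, ← hK.bs.inj e', LinearMap.zero_apply, map_zero]
      refine (Submodule.span_le (p := LinearMap.ker L)).2 ?_ hy
      rintro _ ⟨u, hu, rfl⟩
      exact (e u).trans (by rw [hl hu, map_zero])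

end Vale.Agent.P011UV2
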