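import Vale.Agent.P011UW.IF
import Vale.Agent.P011UW.Grp
import Mathlib.RingTheory.SimpleModule.Basic
import Mathlib.RingTheory.SimpleModule.WedderburnArtin

/-!
Isotropic forms of type `A`: existence of a minimal hyperbolic plane.
-/

set_option autoImplicit false
set_option linter.all false

open Matrix TensorProduct

namespace Vale.Agent.P011UV2

open Vale.Agent.P011L Vale.Agent.P011LB Vale.Agent.P011UW

variable {k K : Type} [Field k] [Field K] [Algebra k K] {n : ℕ} {A : Type} [Ring A] [StarRing A]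
  [Algebra k A] (M : Mo k K n A)

/-- the projection along a linear form -/
noncomputable def pj (p : K →ₗ[k] k) : BB n K →ₗ[k] A :=
  (TensorProduct.lid k A).toLinearMap ∘ₗ LinearMap.rTensor A p ∘ₗ
    (AlgEquiv.ofBijective (lf M.j) M.bij).symm.toLinearMap.restrictScalars k

theorem pj_lf (p : K →ₗ[k] k) (t : K ⊗[k] A) :
    pj M p (lf M.j t) = TensorProduct.lid k A (LinearMap.rTensor A p t) :=
  congrArg (fun t => TensorProduct.lid k A (LinearMap.rTensor A p t))
    ((AlgEquiv.ofBijective (lf M.j) M.bij).symm_apply_apply t)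

theorem pj_sm (p : K →ₗ[k] k) (c : K) (a : A) : pj M p (c • M.j a) = p c • a := by
  rw [← lf_tmul, pj_lf, LinearMap.rTensor_tmul, TensorProduct.lid_tmul]

theorem ind {Q : BB n K → Prop} (h : ∀ (c : K) a, Q (c • M.j a))
    (h' : ∀ x y, Q x → Q y → Q (x + y)) (y : BB n K) : Q y := by
  obtain ⟨t, rfl⟩ := M.bij.2 y
  induction t with
  | zero => simpa using h 0 0
  | tmul c a => exact (lf_tmul M.j c a).symm ▸ h c a
  | add s t a b => exact (map_add (lf M.j) s t).symm ▸ h' _ _ a b

theorem pj_sep {y : BB n K} (h : ∀ p, pj M p y = 0) : y = 0 := by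
  obtain ⟨t, rfl⟩ := M.bij.2 y
  obtain ⟨c, rfl⟩ := TensorProduct.eq_repr_basis_right (Module.Basis.ofVectorSpace k A) t
  suffices c = 0 by simp [this]
  ext i
  by_contra e
  obtain ⟨p, hp⟩ := Module.Projective.exists_dual_ne_zero k e
  have := h p
  rw [pj_lf] at this
  simp only [Finsupp.sum, map_sum, LinearMap.rTensor_tmul, TensorProduct.lid_tmul] at this
  exact hp (linearIndependent_iff'.1 (Module.Basis.ofVectorSpace k A).linearIndependent _
    (fun i => p (c i)) this i (Finsupp.mem_support_iff.2 e))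

theorem pj_mul (p : K →ₗ[k] k) (a b : A) (y : BB n K) :
    pj M p (M.j a * y * M.j b) = a * pj M p y * b := by
  induction y using ind M with
  | h c x => rw [mul_smul_comm, smul_mul_assoc, ← map_mul, ← map_mul, pj_sm, pj_sm, mul_smul_comm,
      smul_mul_assoc]
  | h' x y a b => simp only [mul_add, add_mul, map_add, a, b]

theorem ex_p : ∃ p : K →ₗ[k] k, p 1 = 1 := by
  obtain ⟨p, hp⟩ := Module.Projective.exists_dual_ne_zero k (one_ne_zero (α := K))
  exact ⟨(p 1)⁻¹ • p, inv_mul_cancel₀ hp⟩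

theorem j_inj : Function.Injective M.j := fun a b h => by
  obtain ⟨p, hp⟩ := ex_p (k := k) (K := K)
  have := (pj_sm M p 1 a).symm.trans (h ▸ pj_sm M p 1 b)
  rwa [hp, one_smul, one_smul] at this

include M in
theorem st_sm (a : k) (x : A) : star (a • x) = a • star x := j_inj M (by
  rw [M.st, map_smul, map_smul, M.st]
  rfl)

theorem pj_st (p : K →ₗ[k] k) (y : BB n K) : pj M p (st y) = star (pj M p y) := by
  induction y using ind M with
  | h c x => rw [pj_sm, st_sm M, ← pj_sm, M.st]; rfl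
  | h' x y a b => rw [map_add, star_add, ← a, ← b, ← map_add]; rfl

include M in
theorem fd : Module.Finite k A := by
  haveI := Module.Finite.equiv (AlgEquiv.ofBijective (lf M.j) M.bij).symm.toLinearEquiv
  haveI := Module.Finite.finite_basis ((Module.Basis.ofVectorSpace k A).baseChange K)
  exact Module.Finite.of_basis (Module.Basis.ofVectorSpace k A)

theorem prime {a b : A} (h : ∀ x, (M.j (a * x * b)).1 = 0) : (M.j a).1 = 0 ∨ (M.j b).1 = 0 := by
  have e : ∀ y : BB n K, (M.j a).1 * y.1 * (M.j b).1 = 0 := fun y => by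
    induction y using ind M with
    | h c x =>
      have := h x
      rw [map_mul, map_mul] at this
      rw [Prod.smul_fst, mul_smul_comm, smul_mul_assoc]
      exact (congrArg (c • ·) this).trans (smul_zero _)
    | h' x y a b => rw [Prod.fst_add, mul_add, add_mul, a, b, add_zero]
  by_contra! c
  obtain ⟨i, j, h1⟩ : ∃ i j, (M.j a).1 i j ≠ 0 := by
    by_contra! c'
    exact c.1 (Matrix.ext c')
  obtain ⟨i', j', h2⟩ : ∃ i j, (M.j b).1 i j ≠ 0 := by
    by_contra! c'
    exact c.2 (Matrix.ext c')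
  have := congrFun₂ (e (single j i' 1, 0)) i j'
  simp [Matrix.mul_apply, single, ite_and, h1, h2] at this

include M in
theorem reg (r : A) : ∃ x, r * x * r = r := by
  obtain ⟨p, hp⟩ := ex_p (k := k) (K := K)
  obtain ⟨e, he, h⟩ := IsSemisimpleRing.ideal_eq_span_idempotent (Ideal.span {M.j r})
  obtain ⟨x, hx⟩ := Ideal.mem_span_singleton'.1 (h.ge (Ideal.subset_span rfl))
  obtain ⟨y, hy⟩ := Ideal.mem_span_singleton'.1 (h.le (Ideal.subset_span rfl))
  refine ⟨pj M p x, ?_⟩
  rw [← pj_mul, mul_assoc, hx, ← hy, mul_assoc, he.eq, hy, ← one_smul K (M.j r), pj_sm, hp, one_smul]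

theorem nzd (h : ∀ a, (M.j a).1 = 0 → a = 0) {d x : A} (hd : ∀ x, x * d = d * x) (e : x * d = 0) :
    x = 0 ∨ d = 0 :=
  (prime M fun y => by rw [mul_assoc, hd, ← mul_assoc, e, zero_mul, map_zero]; rfl).imp (h _) (h _)

theorem ex_c {ε : A} (h1 : (M.j ε).1 ≠ 0) (h2 : (M.j ε).2 ≠ 0) :
    ∃ c, Ce k c ∧ Fu c ε ∧ (M.j c = (1, 0) ∨ ∀ a, (M.j a).1 = 0 → a = 0) := by
  have pr : ∀ c : A, (∀ a, (M.j (a * c)).1 = 0 → a * c = 0) →
      ∀ a b, a * c ≠ 0 → b * c ≠ 0 → ∃ x, a * x * b * c ≠ 0 := fun c h a b ha hb => by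
    by_contra! e
    rcases prime M (a := a) (b := b * c) fun x => by rw [← mul_assoc, e, map_zero]; rfl with e | e
    · exact ha (h a (by rw [map_mul, Prod.fst_mul, e, zero_mul]))
    · exact hb (h b e)
  rcases M.dich with ⟨c, hc⟩ | h
  · have hs : M.j (star c) = (0, 1) := by rw [M.st, hc]; simp [st]
    have sq : (c - star c) * (c - star c) = 1 := j_inj M (by
      rw [map_mul, map_sub, hc, hs, map_one]
      exact Prod.ext (by simp) (by simp))
    refine ⟨c, ⟨st_sm M, fun x => j_inj M ?_, j_inj M ?_, ⟨⟨_, _, sq, sq⟩, rfl⟩, pr c fun a e => j_inj M ?_⟩, ⟨fun e => h1 ?_, fun e => h2 ?_⟩, .inl hc⟩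
    · rw [map_mul, map_mul, hc]
      exact Prod.ext (by simp) (by simp)
    · rw [map_add, hc, hs, map_one]
      exact Prod.ext (by simp) (by simp)
    · refine Prod.ext (by rw [e, map_zero]; rfl) ?_
      rw [map_mul, hc]
      simp
    · simpa [hc] using congrArg (fun a => (M.j a).1) e
    · simpa [hs] using congrArg (fun a => (M.j a).2) e
  · haveI := fd M
    have e0 : ε ≠ 0 := fun e => h1 (by rw [e, map_zero]; rfl)
    obtain ⟨p, hp, hq⟩ : ∃ p : K →ₗ[k] k, p 1 = 1 ∧ pj M p (1, -1) ≠ 0 := by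
      obtain ⟨p, hp⟩ := ex_p (k := k) (K := K)
      obtain ⟨q, hq⟩ : ∃ q, pj M q (1, -1) ≠ 0 := by
        by_contra! e
        exact h1 (by rw [← mul_one (M.j ε).1, show (1 : Mn n K) = 0 from
          congrArg Prod.fst (pj_sep M e), mul_zero])
      have lin : ∀ (s : k) y, pj M (p + s • q - (s * q 1) • p) y =
          pj M p y + s • pj M q y - (s * q 1) • pj M p y := fun s y => by
        induction y using ind M with
        | h c x => simp only [pj_sm, LinearMap.sub_apply, LinearMap.add_apply, LinearMap.smul_apply,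
            add_smul, sub_smul, smul_smul, smul_eq_mul]
        | h' x y a b => simp only [map_add, a, b, smul_add]; abel
      by_cases c : pj M p (1, -1) = 0
      · exact ⟨p + (1 : k) • q - (1 * q 1) • p, by simp [hp], by
          rwa [lin, c, smul_zero, sub_zero, zero_add, one_smul]⟩
      · exact ⟨p, hp, c⟩
    have cen : ∀ x, x * pj M p (1, 0) = pj M p (1, 0) * x := fun x => by
      rw [← mul_one (x * _), ← one_mul (_ * x), ← mul_assoc, ← pj_mul, ← pj_mul]
      exact congrArg _ (Prod.ext (by simp) (by simp))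
    have tr : pj M p (1, 0) + star (pj M p (1, 0)) = 1 := by
      rw [← pj_st, ← map_add, ← one_smul k (1 : A), ← hp, ← pj_sm]
      exact congrArg _ (Prod.ext (by simp [st]) (by simp [st]))
    have df : pj M p (1, 0) - star (pj M p (1, 0)) = pj M p (1, -1) := by
      rw [← pj_st, ← map_sub]
      exact congrArg _ (Prod.ext (by simp [st]) (by simp [st]))
    rw [← df] at hq
    generalize pj M p (1, 0) = c at cen tr hq
    have cen' : ∀ x, x * star c = star c * x := fun x => by
      rw [← star_star x, ← star_mul, ← cen, star_mul]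
    have cd : ∀ x, x * (c - star c) = (c - star c) * x := fun x => by
      rw [mul_sub, sub_mul, cen, cen']
    have c0 : c ≠ 0 := fun e => hq (by rw [e, star_zero, sub_zero])
    obtain ⟨y, hy⟩ := (LinearMap.injective_iff_surjective (f := LinearMap.mulRight k (c - star c))).1
      ((injective_iff_map_eq_zero _).2 fun x e => (nzd M h cd e).resolve_right hq) 1
    exact ⟨c, ⟨st_sm M, cen, tr, ⟨⟨_, y, (cd y).symm.trans hy, hy⟩, rfl⟩, pr c fun a => h _⟩,
      ⟨fun e => (nzd M h cen e).elim e0 c0, fun e => (nzd M h cen' e).elim e0 (star_ne_zero.2 c0)⟩,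
      .inr h⟩

theorem hyp {ε : A} (ee : ε * ε = ε) (es : ε * star ε = 0) (se : star ε * ε = 0)
    (h1 : (M.j ε).1 ≠ 0) (h2 : (M.j ε).2 ≠ 0) :
    ∃ c e : A, Hy k c e ∧ (M.j c = (1, 0) ∨ ∀ a, (M.j a).1 = 0 → a = 0) := by
  haveI := fd M
  obtain ⟨c, H, hε, hc⟩ := ex_c M h1 h2
  obtain ⟨e, ⟨pp, i, fu⟩, hm⟩ := (measure fun e : A =>
    Module.finrank k (LinearMap.range (LinearMap.mulRight k e))).wf.has_min
    {e | e * e = e ∧ In ε ε e ∧ Fu c e} ⟨ε, ee, ⟨ee, ee⟩, hε⟩
  have key : ∀ f, f * f = f → In e e f → Fu c f → f = e := fun f ff fi ff' => by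
    have le : LinearMap.range (LinearMap.mulRight k f) ≤ LinearMap.range (LinearMap.mulRight k e) := by
      rintro _ ⟨x, rfl⟩
      exact ⟨x * f, by rw [LinearMap.mulRight_apply, mul_assoc, fi.r]; rfl⟩
    obtain ⟨y, hy⟩ := (Submodule.eq_of_le_of_finrank_le le (not_lt.1 (hm f ⟨ff,
      ⟨by rw [← fi.l, ← mul_assoc, i.l], by rw [← fi.r, mul_assoc, i.r]⟩, ff'⟩))).ge ⟨e, pp⟩
    rw [← fi.l, ← hy, LinearMap.mulRight_apply, mul_assoc, ff]
  refine ⟨c, e, ⟨H, ⟨pp, fu, fun r ri rf => ?_⟩, ?_, ?_⟩, hc⟩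
  · obtain ⟨x, hx⟩ := reg M r
    have i1 : In e e e := ⟨pp, pp⟩
    have xi := i1.mid i1 x
    have h : r * (e * x * e) * r = r := by
      rw [← mul_assoc, ← mul_assoc, ri.r, mul_assoc, ri.l, hx]
    exact ⟨_, ri, xi, key _ (by rw [← mul_assoc, h]) (ri.mul xi) (H.fu_l (b := r) (h.symm ▸ rf)),
      key _ (by rw [mul_assoc, ← mul_assoc r, h]) (xi.mul ri)
        (Ce.fu_r (a := r) (by rwa [← mul_assoc, h]))⟩
  · exact i.z i.st es
  · exact i.st.z i se

end Vale.Agent.P011UV2
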